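/-!
# Row 245 (S0378, S0379): blueprint

Base `H2 = {yy > 0} ⊆ ℂ²`, `tt = -log yy`.  Hartogs domain `d.U = {|w|² e^{ph z} < 1}`, potential
`d.Phi = P0 + c F`, `F = -log (1 - |w|² e^{ph})`.

* `Wirt`, `WirtBd`: Wirtinger calculus, jets `(H, A, Q)` of potentials, bounds.
* `Alg`, `AlgPert`: algebra of jets; `N / Den` is the sectional curvature (`Curv`).
* `TJet`, `HartJet`: exact jets of `t0` and `F`.  `HartAlg0`, `HartBd`, `HartLow`: algebraic lower
  and upper bounds for the curvature when `c` is constant; `Leibniz`, `HartLoc`: variable `c` is a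
  perturbation; `Hart`: the Hartogs domain is `Good` (negative curvature, proper potential with
  bounded gradient); `Complete`: `Good` + `Diffeo` gives completeness.
* `Well`, `Base`, `Omega`: `ph = P0 + Om`, where `Om` is a plurisubharmonic sum of deep wells at
  all scales `δ j`.  `NonEx`: a disc-holomorphic modulus bounded by `e^{b (φbg + Om)}` vanishes
  (maximum principle on discs where a well is constant, Harnack towards a well centre).
* S0378: `Data78` (`P0 = tt`, `c = 1/K0`), `Jac`.  S0379: `Beta`, `Data79a`, `Data79`
  (`P0 = tt - e(TT)`, `c = β(TT)² → 0`), three copies glued into `H3` (`Glue*`).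
* `Final`: both statements.
-/
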